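import Vale.Agent.P144E.Basic

/-!
Constants independent of the angles: definitions and the statements of the blocks.
-/

namespace Vale.Agent.P144Z

open Finset Matrix

/-! ### Geometry on the torus -/

section

variable {M : ℕ}

/-- Every outer face is joined by outer faces to a face at distance at least `r`. -/
def Esc (I : Finset (Tor M)) (r : ℕ) : Prop := ∀ f, f ∉ I → ∃ g, r ≤ tdist g f ∧ OutConn I f g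

/-- The properties of the boundary whose constants do not depend on the angles: in each range of
scales there is a window where the outer faces are connected or the inner faces are rare. -/
structure Uni (I : Finset (Tor M)) (N K K' r : ℕ) : Prop where
  one : 1 ≤ N
  esc : Esc I r
  thk : ∀ f, f ∉ I → ∃ x, tdist x f ≤ N ∧ ∀ g, tdist g x ≤ 4 → g ∉ I
  tr : ∀ y, TrB I y r N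
  win : ∀ b, b ∉ I → ∀ s, 1 ≤ s → K' * s ≤ r → ∃ s', s ≤ s' ∧ N * (K * s') ≤ K' * s ∧
    (ConnB I b (K * s') (N * (K * s')) ∨
      K * (I.filter fun x => tdist x b ≤ K * s').card ≤ (K * s') ^ 2)

/-- The shape of the dug sets: `Tp` are the tips and `Tc` the corners of the removed squares. -/
structure ShapeU (I Tp Tc : Finset (Tor M)) (κ : ℝ) (N K K' K₀ r₀ N₁ r : ℕ) : Prop where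
  small : ShapeW I Tc (1 / 8) κ N r₀
  uni : Uni I N K K' r
  rgh : Rgh I N₁ r
  sep : ∀ p ∈ Tp, ∀ p' ∈ Tp, p ≠ p' → r < tdist p p'
  far : ∀ y ρ, ρ ≤ r → (∀ p ∈ Tp, K₀ * (ρ + r₀) ≤ tdist y p) → ShapeAt I 1 κ ρ y

/-- No flux of the strings near the boundary. -/
def FlatB (I : Finset (Tor M)) (B : Gauge M) (r : ℕ) : Prop :=
  ∀ (z : Tor M) (d ρ : ℕ), NearB I d z → d + ρ ≤ r → Flat B z ρ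

end

/-! ### Geometry in the plane lattice -/

/-- The union or the intersection of two walls. -/
def Two (un : Bool) (S₁ S₂ : Set (ℤ × ℤ)) : Set (ℤ × ℤ) :=
  {v | if un then v ∈ S₁ ∨ v ∈ S₂ else v ∈ S₁ ∧ v ∈ S₂}

/-- A reentrant tip, or a sharp convex tip. -/
def TipK (un : Bool) (S₁ S₂ : Set (ℤ × ℤ)) (ν₁ ν₂ : ℂ) (α κ : ℝ) : Prop :=
  TipS S₁ S₂ ν₁ ν₂ α κ ∧ (un = false → ‖ν₁ + ν₂‖ ≤ 1)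

/-- Within distance `ρ` of `p` the set is a tip at `p`. -/
def TipU (Λ : Finset (ℤ × ℤ)) (α κ : ℝ) (ρ : ℕ) (p : ℤ × ℤ) : Prop :=
  ∃ un S₁ S₂ ν₁ ν₂, TipK un S₁ S₂ ν₁ ν₂ α κ ∧ ∀ v, zd v 0 ≤ ρ → (p + v ∈ Λ ↔ v ∈ Two un S₁ S₂)

/-- The lattice version of `TameW`; the angle only enters at the tips. -/
structure RawU (Λ P : Finset (ℤ × ℤ)) (α κ : ℝ) (r : ℕ) : Prop where
  sep : ∀ p ∈ P, ∀ p' ∈ P, p ≠ p' → r < zd p p'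
  tip : ∀ p ∈ P, TipU Λ α κ r p
  chart : ∀ z : ℤ × ℤ, (∃ (S₁ S₂ : Set (ℤ × ℤ)) (ν₁ ν₂ : ℂ), ‖ν₁‖ = 1 ∧ ‖ν₂‖ = 1 ∧
    1 ≤ ‖ν₁ + ν₂‖ ∧ Epi S₁ ν₁ κ ∧ Epi S₂ ν₂ κ ∧
      ∀ v : ℤ × ℤ, zd v 0 ≤ r → (z + v ∈ Λ ↔ v ∈ S₁ ∧ v ∈ S₂)) ∨
    ∃ p ∈ P, ∃ ρ, zd z p + r ≤ ρ ∧ TipU Λ α κ ρ p

/-- The tip without the square of radius `t` around `c`. -/
def DugU (un : Bool) (S₁ S₂ : Set (ℤ × ℤ)) (c : ℤ × ℤ) (t : ℕ) : Set (ℤ × ℤ) :=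
  {v | v ∈ Two un S₁ S₂ ∧ t < zd v c}

/-- The corners of the square of radius `t` around `c`. -/
def IsCr (c : ℤ × ℤ) (t : ℕ) (q : ℤ × ℤ) : Prop :=
  (q.1 - c.1).natAbs = t ∧ (q.2 - c.2).natAbs = t

/-- The centre is close to the tip and the walls are far from the corners. -/
def GoodC (c : ℤ × ℤ) (t : ℕ) (ν₁ ν₂ : ℂ) : Prop :=
  2 * zd c 0 ≤ t ∧ ∀ q, IsCr c t q → (t : ℝ) ≤ 20 * |ht ν₁ q| ∧ (t : ℝ) ≤ 20 * |ht ν₂ q|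

/-- The two local descriptions of a dug set on the torus. -/
def ChU {M : ℕ} (I Tp Tc : Finset (Tor M)) (α κ : ℝ) (t R : ℕ) : Prop :=
  ∀ y, ShapeAt I 1 κ R y ∨ ∃ p ∈ Tp, ∃ (y₀ c : ℤ × ℤ) (un : Bool) (S₁ S₂ : Set (ℤ × ℤ))
    (ν₁ ν₂ : ℂ), tdist y p ≤ zd y₀ 0 ∧ TipK un S₁ S₂ ν₁ ν₂ α κ ∧ GoodC c t ν₁ ν₂ ∧
    (∀ q, IsCr c t q → zd q y₀ ≤ R → y + prj M (q - y₀) ∈ Tc) ∧
    ∀ v, zd v 0 ≤ R → (y + prj M v ∈ I ↔ y₀ + v ∈ DugU un S₁ S₂ c t)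

/-- Away from the tip only one wall is seen. -/
def FarU : Prop :=
  ∀ α > (0 : ℝ), ∃ N : ℕ, ∃ κ₀ > (0 : ℝ), ∀ κ, 0 ≤ κ → κ ≤ κ₀ → ∀ un S₁ S₂ ν₁ ν₂,
    TipS S₁ S₂ ν₁ ν₂ α κ → ∀ (y : ℤ × ℤ) (ρ : ℕ), N * (ρ + 1) ≤ zd y 0 →
      ∃ (S : Set (ℤ × ℤ)) (ν : ℂ), (ν = ν₁ ∨ ν = ν₂) ∧ Epi S ν κ ∧
        (S = Set.univ ∨ S = ∅ ∨ |ht ν y| ≤ 2 * κ * zd y 0 + 3 * ρ + 5) ∧
        ∀ v, zd v 0 ≤ ρ → (y + v ∈ Two un S₁ S₂ ↔ v ∈ S)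

/-- There is a good centre. -/
def ShiftU : Prop :=
  ∃ t₀ : ℕ, ∀ t ≥ t₀, ∀ ν₁ ν₂ : ℂ, ‖ν₁‖ = 1 → ‖ν₂‖ = 1 → ∃ c, GoodC c t ν₁ ν₂

/-- At small scales a dug tip is a wide convex corner or the outside of the square. -/
def SmallU : Prop :=
  ∀ α > (0 : ℝ), ∃ K₁ : ℕ, ∃ κ₀ > (0 : ℝ), ∀ κ, 0 ≤ κ → κ ≤ κ₀ → ∀ un S₁ S₂ ν₁ ν₂ c t,
    TipS S₁ S₂ ν₁ ν₂ α κ → GoodC c t ν₁ ν₂ → ∀ (y : ℤ × ℤ) (ρ : ℕ), K₁ * (ρ + 1) ≤ t →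
      (∃ (S S' : Set (ℤ × ℤ)) (ν ν' : ℂ), ‖ν‖ = 1 ∧ ‖ν'‖ = 1 ∧ 1 / 8 ≤ ‖ν + ν'‖ ∧ Epi S ν κ ∧
        Epi S' ν' κ ∧ ∀ v, zd v 0 ≤ ρ → (y + v ∈ DugU un S₁ S₂ c t ↔ v ∈ S ∧ v ∈ S')) ∨
      ∀ v, zd v 0 ≤ ρ → (y + v ∈ DugU un S₁ S₂ c t ↔ t < zd (y + v) c)

/-- At the scales where the walls are straight the outside of a reentrant tip is connected. -/
def ConnOr : Prop :=
  ∃ N : ℕ, ∀ α > (0 : ℝ), ∀ K₀ : ℕ, ∃ κ₀ > (0 : ℝ), ∃ t₀ : ℕ, ∀ κ, 0 ≤ κ → κ ≤ κ₀ → ∀ t ≥ t₀,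
    ∀ S₁ S₂ ν₁ ν₂ c, TipS S₁ S₂ ν₁ ν₂ α κ → 2 * zd c 0 ≤ t → ∀ (b : ℤ × ℤ) (s : ℕ), t ≤ K₀ * s →
    zd b 0 ≤ K₀ * s → ∀ f f', zd f b ≤ s → zd f' b ≤ s → f ∉ DugU true S₁ S₂ c t →
      f' ∉ DugU true S₁ S₂ c t → GeoA.Rch (fun v => v ∉ DugU true S₁ S₂ c t ∧ zd v b ≤ N * s) f f'

open Classical in
/-- The windows of a sharp convex tip. -/
def WinAnd : Prop :=
  ∃ N ≥ 1, ∀ K ≥ 1, ∃ K' : ℕ, ∀ α > (0 : ℝ), ∀ K₀ : ℕ, ∃ κ₀ > (0 : ℝ), ∃ t₀ : ℕ, ∀ κ, 0 ≤ κ →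
    κ ≤ κ₀ → ∀ t ≥ t₀, ∀ S₁ S₂ ν₁ ν₂ c, TipK false S₁ S₂ ν₁ ν₂ α κ → 2 * zd c 0 ≤ t →
    ∀ (b : ℤ × ℤ) (s : ℕ), t ≤ K₀ * s → zd b 0 ≤ K₀ * s → ∃ s', s ≤ s' ∧ N * (K * s') ≤ K' * s ∧
      ((∀ f f', zd f b ≤ K * s' → zd f' b ≤ K * s' → f ∉ DugU false S₁ S₂ c t →
        f' ∉ DugU false S₁ S₂ c t →
          GeoA.Rch (fun v => v ∉ DugU false S₁ S₂ c t ∧ zd v b ≤ N * (K * s')) f f') ∨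
      K * ((Icc (-(K * s' : ℕ) : ℤ) (K * s' : ℕ) ×ˢ Icc (-(K * s' : ℕ) : ℤ) (K * s' : ℕ)).filter
        fun v => b + v ∈ DugU false S₁ S₂ c t).card ≤ (K * s') ^ 2)

/-- The outside of a dug tip is locally connected and thick, with constants that depend on
everything. -/
def RghZ : Prop :=
  ∀ α > (0 : ℝ), ∃ t₀ : ℕ, ∃ κ₀ > (0 : ℝ), ∀ t ≥ t₀, ∃ N : ℕ, ∀ κ, 0 ≤ κ → κ ≤ κ₀ →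
    ∀ un S₁ S₂ ν₁ ν₂, TipS S₁ S₂ ν₁ ν₂ α κ → (∃ v, 2 * zd v 0 ≤ t ∧ v ∉ Two un S₁ S₂) ∧
      (∃ v, 2 * zd v 0 ≤ t ∧ v ∈ Two un S₁ S₂) ∧ ∀ c, 2 * zd c 0 ≤ t →
      (∀ (f : ℤ × ℤ) (s : ℕ), f ∉ DugU un S₁ S₂ c t →
        ∃ x, zd x f ≤ N * (s + 1) ∧ ∀ g, zd g x ≤ s → g ∉ DugU un S₁ S₂ c t) ∧
      ∀ (y f f' : ℤ × ℤ) (s : ℕ), zd f y ≤ s → zd f' y ≤ s → f ∉ DugU un S₁ S₂ c t →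
        f' ∉ DugU un S₁ S₂ c t →
          GeoA.Rch (fun v => v ∉ DugU un S₁ S₂ c t ∧ zd v y ≤ N * (s + 1)) f f'

/-- The charts of the dug sets. -/
def ChStmt : Prop :=
  ∃ t₀ : ℕ, ∀ t ≥ t₀, ∀ (α κ : ℝ) (Λ P : Finset (ℤ × ℤ)) (r T R : ℕ), RawU Λ P α κ r →
    (∀ v ∈ Λ, zd v 0 ≤ T) → (∀ p ∈ P, zd p 0 ≤ T + t) → 2 * R + 8 * t ≤ r →
    ∃ c : ℤ × ℤ → ℤ × ℤ, (∀ p, 2 * zd (c p) p ≤ t) ∧ ∀ (M : ℕ) [NeZero M], 4 * (T + r) ≤ M →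
      (∀ p ∈ P.image (prj M), ∀ p' ∈ P.image (prj M), p ≠ p' → r < tdist p p') ∧
      ∃ Tc : Finset (Tor M), (∀ p ∈ Tc, ∀ p' ∈ Tc, p ≠ p' → t < tdist p p') ∧
        ChU ((dig Λ (P.image c) t).image (prj M)) (P.image (prj M)) Tc α κ t R

/-- The small scales. -/
def SmallW : Prop :=
  ∃ N : ℕ, ∀ α > (0 : ℝ), ∃ K₁ : ℕ, ∃ κ₀ > (0 : ℝ), ∀ κ, 0 < κ → κ ≤ κ₀ → ∀ (M : ℕ) [NeZero M]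
    (I Tp Tc : Finset (Tor M)) (t R r₀ : ℕ), ChU I Tp Tc α κ t R →
    (∀ p ∈ Tc, ∀ p' ∈ Tc, p ≠ p' → t < tdist p p') → K₁ * (r₀ + 1) ≤ t → t ≤ R → 4 * R ≤ M →
      ShapeW I Tc (1 / 8) κ N r₀

/-- The large scales. -/
def UniW : Prop :=
  ∀ N₀ : ℕ, ∃ N ≥ N₀, ∀ K ≥ 1, ∃ K' : ℕ, ∀ α > (0 : ℝ), ∀ K₁ : ℕ, ∃ (K₀ t₀ : ℕ), ∃ κ₀ > (0 : ℝ),
    ∀ t ≥ t₀, ∃ N₁ Q : ℕ, ∀ κ, 0 < κ → κ ≤ κ₀ → ∀ (M : ℕ) [NeZero M] (I Tp Tc : Finset (Tor M))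
    (R r₀ r : ℕ), ChU I Tp Tc α κ t R → Rgh I N₀ r₀ → 5 * N₀ ≤ r₀ → t ≤ K₁ * r₀ →
    Q * (r + 1) ≤ R → 4 * R ≤ M → Uni I N K K' r ∧ Rgh I N₁ r ∧
      ∀ y ρ, ρ ≤ r → (∀ p ∈ Tp, K₀ * (ρ + r₀) ≤ tdist y p) → ShapeAt I 1 κ ρ y

/-- The dug sets have the shape `ShapeU`. -/
def DigU : Prop :=
  ∃ N : ℕ, ∀ K ≥ 1, ∃ K' : ℕ, ∀ α > (0 : ℝ), ∃ κ₀ > (0 : ℝ), ∃ K₀ r₁ : ℕ, ∀ r₀ ≥ r₁,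
    ∃ t N₁ Q : ℕ, 1 ≤ t ∧ 1 ≤ Q ∧ ∀ κ, 0 < κ → κ ≤ κ₀ → ∀ (Λ P : Finset (ℤ × ℤ)) (r T : ℕ),
    RawU Λ P α κ r → Q ≤ r → (∀ v ∈ Λ, zd v 0 ≤ T) → ∃ c : ℤ × ℤ → ℤ × ℤ,
      (∀ p, 2 * zd (c p) p ≤ t) ∧
      (∀ p ∈ P, 2 * zd p 0 ≤ 2 * T + t ∧ ∃ v, v ∉ Λ ∧ 2 * zd v p ≤ t) ∧
      ∀ (M : ℕ) [NeZero M], 4 * (T + r) ≤ M → ∃ Tc, ShapeU ((dig Λ (P.image c) t).image (prj M))
        (P.image (prj M)) Tc κ N K K' K₀ r₀ N₁ (r / Q)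

/-- The discretisation of the domains. -/
def RawStmtU : Prop :=
  ∀ (α : ℝ) (D : Set ℂ), TameW α D → ∃ T > (0 : ℝ), ∀ κ > (0 : ℝ), ∃ ρ > (0 : ℝ), ∀ a > (0 : ℝ),
    (∀ x, x ∈ P144.disc D a ↔ (⟨a * x.1, a * x.2⟩ : ℂ) ∈ D) ∧
    (∀ x ∈ P144.disc D a, a * zd x 0 ≤ T) ∧
      ∀ r : ℕ, 1 ≤ r → a * r ≤ ρ → ∃ P, RawU (P144.disc D a) P α κ r

/-! ### Analysis -/

/-- Hölder decay of a pair along a slit. -/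
def HolU : Prop :=
  ∀ N : ℕ, ∃ C β : ℝ, 1 ≤ C ∧ 0 < β ∧ β ≤ 1 / 2 ∧ ∀ (ρ : ℕ) (u w : ℤ × ℤ → ℝ)
    (pr : ℤ × ℤ → Fin 4 → Prop) (out : ℤ × ℤ → Prop), IsPair ρ u w pr out → ∀ S : ℝ,
    (∀ i, i + N ≤ ρ → ∃ x, i ≤ zd x 0 + N ∧ zd x 0 ≤ i + N ∧
      ∀ v, zd v x ≤ 2 → out v ∧ ∀ a, ¬ pr v a) →
    (∀ v, zd v 0 ≤ ρ → |u v| ≤ S ∧ |w v| ≤ S) → ∀ s : ℕ, 1 ≤ s → ∀ v, zd v 0 ≤ s → s ≤ ρ →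
      |u v| ≤ C * S * ((s : ℝ) / ρ) ^ β ∧ |w v| ≤ C * S * ((s : ℝ) / ρ) ^ β

open Classical in
/-- The increments of `u`, with the value of `w` in the boundary term. -/
noncomputable def GM (u w : ℤ × ℤ → ℝ) (pr : ℤ × ℤ → Fin 4 → Prop) (v : ℤ × ℤ) (a : Fin 4) : ℝ :=
  if pr v a then u (v + st4 a) - u v else -(2 * tc) * (u v - w (v - cn a))

/-- A pair with several boundary values, each of which is taken on every contour. -/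
structure IsPairM (ρ : ℕ) (u w : ℤ × ℤ → ℝ) (pr : ℤ × ℤ → Fin 4 → Prop) (out : ℤ × ℤ → Prop) :
    Prop where
  le : ∀ v k, zd v 0 ≤ ρ → w (v - cn k) ≤ u v
  esc : ∀ s, s ≤ ρ → ∀ v, zd v 0 ≤ s → out v → ∃ x, zd x 0 = s ∧ w x = w v
  rem : ∀ v a, ¬ pr v a → out (v - cn (a - 1)) ∧ out (v - cn a)
  symm : ∀ v a, pr (v + st4 a) (a + 2) ↔ pr v a
  sub : ∀ v, zd v 0 + 1 ≤ ρ → 0 ≤ ∑ a, GM u w pr v a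
  sup : ∀ v, zd v 0 + 1 ≤ ρ → ¬ out v → ∑ a, (w (v + st4 a) - w v) ≤ 0

/-- The pair of a homogeneous solution, without connectedness. -/
def ExM : Prop :=
  ∃ C : ℝ, 1 ≤ C ∧ ∀ (M : ℕ) [NeZero M] (R : Reg M) (B : Gauge M), IsSign B →
    ∀ (z : Tor M) (s ρ r : ℕ), s + 2 ≤ ρ → 2 * ρ + 9 ≤ M → Flat B z (ρ + 2) → Esc R.In r →
    2 * s + 4 ≤ r → ∀ φ, Hom (R.pw * B) z (ρ + 2) φ →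
      ∃ u w, IsPairM s u w (R.pr z) (R.out z) ∧
        (∀ v k, zd v 0 ≤ s → u v - w (v - cn k) = chi φ (R.vx z v k) k ^ 2) ∧
        ∀ v, zd v 0 + 1 ≤ s → ∑ k, chi φ (R.vx z v k) k ^ 2 ≤ C * ∑ a, |GM u w (R.pr z) v a|

open Classical in
/-- The increments are bounded by the mass, with a gain when the present edges are rare. -/
def ThinP : Prop :=
  ∃ C : ℝ, 1 ≤ C ∧ ∀ (ρ s : ℕ) (u w : ℤ × ℤ → ℝ) (pr : ℤ × ℤ → Fin 4 → Prop) (out : ℤ × ℤ → Prop)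
    (θ A : ℝ), IsPairM ρ u w pr out → 1 ≤ s → 16 * (s + 1) ≤ ρ → 0 ≤ θ →
    (((Icc (-(ρ : ℤ)) ρ ×ˢ Icc (-(ρ : ℤ)) ρ).filter fun v => ∃ a, pr v a).card : ℝ) ≤
      θ ^ 2 * (ρ : ℝ) ^ 2 →
    ∑ x ∈ Icc (-(ρ : ℤ)) ρ ×ˢ Icc (-(ρ : ℤ)) ρ, ∑ k, (u x - w (x - cn k)) ≤ A →
      (∑ x ∈ Icc (-(s : ℤ)) s ×ˢ Icc (-(s : ℤ)) s, ∑ a, |GM u w pr x a|) * ρ ≤ C * θ * s * A

/-- Decay of the homogeneous solutions with a gain when the inner faces are rare. -/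
def ThinU : Prop :=
  ∃ C : ℝ, 1 ≤ C ∧ ∀ (M : ℕ) [NeZero M] (R : Reg M) (B : Gauge M), IsSign B →
    ∀ (z : Tor M) (s ρ r : ℕ) (θ : ℝ), 1 ≤ s → 60 * s ≤ ρ → 2 * ρ + 9 ≤ M → Flat B z ρ →
    Esc R.In r → 2 * ρ ≤ r → 0 ≤ θ →
    ((R.In.filter fun x => tdist x z ≤ ρ).card : ℝ) ≤ θ ^ 2 * (ρ : ℝ) ^ 2 →
    ∀ φ, Hom (R.pw * B) z ρ φ → l2sq (ball z s) φ * ρ ≤ C * θ * s * l2sq (ball z ρ) φ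

/-- Decay and solvability. -/
def DecU : Prop :=
  ∀ N : ℕ, ∃ K ≥ 1, ∀ K' : ℕ, ∃ c β : ℝ, 1 ≤ c ∧ 0 < β ∧ β ≤ 1 / 2 ∧ ∃ Q : ℕ,
    ∀ (M : ℕ) [NeZero M] (R : Reg M) (B : Gauge M) (r : ℕ) (b : Tor M), IsSign B →
    Uni R.In N K K' r → 4 * r ≤ M → b ∉ R.In → ∀ ρ : ℕ, Q * (ρ + 1) ≤ r → Flat B b (2 * ρ) →
      HomDecH (R.pw * B) b 8 ρ c β ∧ Solv (R.pw * B) b 8 ρ c

/-- Change of scale up to the boundary. -/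
def ShrU : Prop :=
  ∀ N : ℕ, ∃ K ≥ 1, ∀ K' : ℕ, ∃ c β : ℝ, 1 ≤ c ∧ 0 < β ∧ β ≤ 1 / 2 ∧ ∃ Q : ℕ,
    ∀ (M : ℕ) [NeZero M] (R : Reg M) (B : Gauge M) (r : ℕ), Uni R.In N K K' r → Str R.pw B r →
    FlatB R.In B r → 4 * r ≤ M → ∀ ℓ ℓ' : ℕ, 1 ≤ ℓ → ℓ ≤ ℓ' → Q * ℓ' ≤ r →
    ∀ z, (∃ f, f ∉ R.In ∧ tdist f z ≤ ℓ' + 1) → ∀ w,
      hsq (R.pw * B) ℓ (ball z (2 * ℓ)) w ≤
        c ^ 2 * ((ℓ : ℝ) / ℓ') ^ (1 + β) * hsq (R.pw * B) ℓ' (ball z (2 * ℓ')) w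

end Vale.Agent.P144Z
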