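import Vale.Agent.P144D.I.Stmt
import Vale.Agent.P144E.Stmt

/-!
Domains and boundary conditions with a fixed bound on the slopes.
-/

namespace Vale.Agent.P144Z

open Metric Vale.Agent.P144

/-- Near `z` the set `D` is the intersection of two regions above graphs of slope `κ`, or the union
of two such regions whose boundaries cross at `z`; the normals are not closer than `α` to being
opposite, and in the second case not closer than `α` to each other. -/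
def CornerK (α κ : ℝ) (D : Set ℂ) (z : ℂ) : Prop :=
  ∃ r > (0 : ℝ), ∃ (S₁ S₂ : Set ℂ) (ν₁ ν₂ : ℂ), ‖ν₁‖ = 1 ∧ ‖ν₂‖ = 1 ∧
    α ≤ ‖ν₁ + ν₂‖ ∧ Cone S₁ ν₁ κ ∧ Cone S₂ ν₂ κ ∧ (D ∩ ball z r = S₁ ∩ S₂ ∩ ball z r ∨
      α ≤ ‖ν₁ - ν₂‖ ∧ z ∈ frontier S₁ ∧ z ∈ frontier S₂ ∧ D ∩ ball z r = (S₁ ∪ S₂) ∩ ball z r)

/-- Bounded open sets with walls of slope `κ` and convex and reentrant corners. -/
def TameK (α κ : ℝ) (D : Set ℂ) : Prop :=
  IsOpen D ∧ Bornology.IsBounded D ∧ ∀ z, CornerK α κ D z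

/-- Near `D`, at a small scale, the outside of `D` lies in `P`, or lies outside `P`, or `D` and `P`
are regions above graphs of slope `κ` that cross transversally. -/
def PWK (α κ : ℝ) (D P : Set ℂ) : Prop :=
  ∃ r > (0 : ℝ), ∀ z : ℂ, (D ∩ ball z r).Nonempty →
    ball z r \ D ⊆ P ∨ ball z r \ D ⊆ Pᶜ ∨ ∃ (S S' : Set ℂ) (ν τ : ℂ), ‖ν‖ = 1 ∧ ‖τ‖ = 1 ∧
      α ≤ ‖ν + τ‖ ∧ α ≤ ‖ν - τ‖ ∧ Cone S ν κ ∧ Cone S' τ κ ∧ D ∩ ball z r = S ∩ ball z r ∧
        (P \ D) ∩ ball z r = (S' \ D) ∩ ball z r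

/-- The free boundary condition, or a piecewise constant fixed one. -/
def SignK (α κ : ℝ) (D : Set ℂ) (b : Option (ℝ → Config)) : Prop :=
  b = none ∨ ∃ P, PWK α κ D P ∧ b = some (bcOf P)

/-- Bounded open sets which near each boundary point are, after a rotation, the region above the
graph of a function with Lipschitz constant `K`. -/
def IsLip (K : ℝ) (D : Set ℂ) : Prop :=
  IsOpen D ∧ Bornology.IsBounded D ∧ ∀ z ∈ frontier D, ∃ r > (0 : ℝ), ∃ u : ℂ, ‖u‖ = 1 ∧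
    ∃ g : ℝ → ℝ, (∀ s t, |g s - g t| ≤ K * |s - t|) ∧
      ∀ w ∈ ball z r, (w ∈ D ↔ g (u * w).re < (u * w).im)

end Vale.Agent.P144Z
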